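import Vale.Agent.P291.H664.Closed
import Vale.Agent.P291.H415.N3.Rec

/-!
# P291, stage 2: the generating function of `mul` at `1/q` counts nilpotent pairs over `𝔽_q`
-/

set_option linter.unusedSectionVars false

open MvPolynomial

open scoped ENNReal NNReal

namespace Vale.Agent.P291.H664

section real

variable {I E B Λ : Type*} [Fintype E] [DecidableEq I] [Fintype B] [DecidableEq B] [CommRing Λ]
  [IsDomain Λ] [Fintype I]
variable (Q : QD I E B Λ)

/-- the closed form -/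
noncomputable def closed (T : ℝ) : ℝ := ∑ p : (∀ i, (nv Q i).Partition),
  T ^ degL Q (fun i => H564.pl (p i)) * ∏ i, ∏ s ∈ Finset.range (nv Q i),
    ∏ k ∈ Finset.range (H564.pl (p i) s - H564.pl (p i) (s + 1)), (1 - T ^ (k + 1))⁻¹

theorem hasSum_idx {T : ℝ} (h0 : 0 < T) (h1 : T < 1) :
    HasSum (fun x : Q.Idx => T ^ Q.degI x) (closed Q T) := by
  lift T to ℝ≥0 using h0.le
  have h0' : T ≠ 0 := by
    intro h; rw [h] at h0; simp at h0
  have h1' : T < 1 := by exact_mod_cast h1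
  have hp : ∀ k : ℕ, T ^ (k + 1) < 1 := fun k => pow_lt_one₀ zero_le h1' (Nat.succ_ne_zero k)
  set c : ℝ≥0 := ∑ p : (∀ i, (nv Q i).Partition),
    T ^ degL Q (fun i => H564.pl (p i)) * ∏ i, ∏ s ∈ Finset.range (nv Q i),
      ∏ k ∈ Finset.range (H564.pl (p i) s - H564.pl (p i) (s + 1)), (1 - T ^ (k + 1))⁻¹ with hc
  have hcR : (c : ℝ) = closed Q (T : ℝ) := by
    rw [hc, closed, NNReal.coe_sum]
    refine Finset.sum_congr rfl fun p _ => ?_
    rw [NNReal.coe_mul, NNReal.coe_zpow, NNReal.coe_prod]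
    congr 1
    refine Finset.prod_congr rfl fun i _ => ?_
    rw [NNReal.coe_prod]
    refine Finset.prod_congr rfl fun s _ => ?_
    rw [NNReal.coe_prod]
    refine Finset.prod_congr rfl fun k _ => ?_
    rw [NNReal.coe_inv, NNReal.coe_sub (hp k).le, NNReal.coe_one, NNReal.coe_pow]
  have hcE : (c : ℝ≥0∞) = ∑' x : Q.Idx, (T : ℝ≥0∞) ^ Q.degI x := by
    rw [tsum_idx Q _ (by exact_mod_cast h0') ENNReal.coe_ne_top, hc, ENNReal.ofNNReal_finsetSum]
    refine Finset.sum_congr rfl fun p _ => ?_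
    rw [ENNReal.coe_mul, ENNReal.coe_zpow h0', ENNReal.ofNNReal_finsetProd]
    congr 1
    refine Finset.prod_congr rfl fun i _ => ?_
    rw [ENNReal.ofNNReal_finsetProd]
    refine Finset.prod_congr rfl fun s _ => ?_
    rw [ENNReal.ofNNReal_finsetProd]
    refine Finset.prod_congr rfl fun k _ => ?_
    rw [ENNReal.coe_inv (tsub_pos_of_lt (hp k)).ne', ENNReal.coe_sub, ENNReal.coe_one,
      ENNReal.coe_pow]
  rw [← hcR]
  have h2 : HasSum (fun x : Q.Idx => ((T ^ Q.degI x : ℝ≥0) : ℝ≥0∞)) c := by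
    rw [hcE]
    have h3 : ∀ x : Q.Idx, (T : ℝ≥0∞) ^ Q.degI x = ((T ^ Q.degI x : ℝ≥0) : ℝ≥0∞) :=
      fun x => (ENNReal.coe_zpow h0' _).symm
    simp only [h3]
    exact ENNReal.summable.hasSum
  have h3 := ENNReal.hasSum_coe.1 h2
  have h4 := NNReal.hasSum_coe.2 h3
  simpa using h4

theorem idx_fin (e : ℤ) : {x : Q.Idx | Q.degI x = e}.Finite := by
  have h1 : Summable (fun x : {x : Q.Idx | Q.degI x = e} => (1 / 2 : ℝ) ^ Q.degI x.1) :=
    (hasSum_idx Q (T := 1 / 2) (by norm_num) (by norm_num)).summable.subtype _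
  by_contra hinf
  have hinf' : Infinite {x : Q.Idx | Q.degI x = e} := Set.infinite_coe_iff.2 hinf
  have h2 : (fun x : {x : Q.Idx | Q.degI x = e} => (1 / 2 : ℝ) ^ Q.degI x.1) =
      fun _ => (1 / 2 : ℝ) ^ e := by
    funext x
    rw [x.2]
  rw [h2] at h1
  have h3 := (summable_const_iff _).1 h1
  have h4 : (1 / 2 : ℝ) ^ e ≠ 0 := by positivity
  exact h4 h3

/-- **H5**: the generating function of `mul` -/
theorem hasSum_mul {T : ℝ} (h0 : 0 < T) (h1 : T < 1) :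
    HasSum (fun e : ℤ => (Q.mul e : ℝ) * T ^ e) (closed Q T) := by
  have h2 := hasSum_idx Q h0 h1
  have h3 := (Equiv.hasSum_iff (Equiv.sigmaFiberEquiv Q.degI)).2 h2
  refine h3.sigma fun e => ?_
  have hfin : Finite {x : Q.Idx // Q.degI x = e} := (idx_fin Q e)
  have _ : Fintype {x : Q.Idx // Q.degI x = e} := Fintype.ofFinite _
  have h4 := hasSum_fintype (fun x : {x : Q.Idx // Q.degI x = e} => T ^ Q.degI x.1)
  have h5 : (∑ x : {x : Q.Idx // Q.degI x = e}, T ^ Q.degI x.1) = (Q.mul e : ℝ) * T ^ e := by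
    rw [Finset.sum_congr rfl fun x _ => by rw [x.2], Finset.sum_const, Finset.card_univ,
      nsmul_eq_mul]
    unfold QD.mul
    rw [Nat.card_eq_fintype_card]
  rw [h5] at h4
  exact h4

end real

section count

open H564

variable {k : Type*} [Field k] [Finite k]

theorem card_gl (V : Type*) [AddCommGroup V] [Module k V] [FiniteDimensional k V] :
    (Nat.card (V ≃ₗ[k] V) : ℚ) = gl (Nat.card k) (Module.finrank k V) := by
  have _ : Fintype k := Fintype.ofFinite k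
  have hq : 1 < Nat.card k := Finite.one_lt_card
  have h1 := card_inj (K := k) (C := V) (V := V) le_rfl
  have h2 : Nat.card (V ≃ₗ[k] V) = Nat.card {φ : V →ₗ[k] V // Function.Injective φ} := by
    refine Nat.card_congr ⟨fun e => ⟨e.toLinearMap, e.injective⟩,
      fun φ => LinearEquiv.ofInjectiveEndo φ.1 φ.2, fun e => ?_, fun φ => ?_⟩
    · ext v; rfl
    · ext v; rfl
  rw [h2, h1, ← Nat.card_eq_fintype_card]
  have h3 := li_cast hq (Module.finrank k V) (Module.finrank k V) le_rfl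
  have h4 : tt (Nat.card k) (Module.finrank k V - Module.finrank k V) = 1 := by
    rw [Nat.sub_self]; simp [tt]
  rw [h4, mul_one] at h3
  rw [h3, gl, pow_two]

variable {I E : Type*} [Fintype E] [Fintype I] [DecidableEq I]

theorem nz_eq (N : N3.Qv I E) (n : I → ℕ) (w : ℕ) :
    N3.nz k N (N3.FV k (Finsupp.equivFunOnFinite.symm n) w) =
    ∑ p : ∀ i, (n i).Partition, (∏ i, (ap (Nat.card k) (p i))⁻¹) *
        ∏ a, (Nat.card k : ℚ) ^ (∑ s ∈ Finset.range (n (N.src a)),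
          pl (p (N.src a)) s * plo w (fun i => pl (p i)) (N.tgt a) s) := by
  have _ : Fintype k := Fintype.ofFinite k
  have hq : 1 < Nat.card k := Finite.one_lt_card
  have hn : ∀ i, Module.finrank k (N3.FV k (Finsupp.equivFunOnFinite.symm n) w (some i)) = n i := by
    intro i
    rw [N3.finrank_FV]
    rfl
  have hw : Module.finrank k (N3.FV k (Finsupp.equivFunOnFinite.symm n) w none) = w := by
    rw [N3.finrank_FV]
    rfl
  have h1 := card_nil (k := k) (Q := N) (V := N3.FV k (Finsupp.equivFunOnFinite.symm n) w) n hn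
  rw [hw, ← Nat.card_eq_fintype_card] at h1
  have h2 : Nat.card (N3.ComNil k N (N3.FV k (Finsupp.equivFunOnFinite.symm n) w)) =
      Nat.card {z : N3.Lie k (N3.FV k (Finsupp.equivFunOnFinite.symm n) w) ×
        N3.Rep k N (N3.FV k (Finsupp.equivFunOnFinite.symm n) w) //
      (∀ i, IsNilpotent (z.1 i : Module.End k
        (N3.FV k (Finsupp.equivFunOnFinite.symm n) w (some i)))) ∧ N3.dot z.1 z.2 = 0} := by
    refine Nat.card_congr ((Equiv.prodComm _ _).subtypeEquiv fun p => ?_)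
    exact and_comm
  have h3 : (Nat.card (N3.Gau k (N3.FV k (Finsupp.equivFunOnFinite.symm n) w)) : ℚ) =
      ∏ i, gl (Nat.card k) (n i) := by
    rw [Nat.card_pi, Nat.cast_prod]
    refine Finset.prod_congr rfl fun i _ => ?_
    rw [card_gl, hn]
  have h4 : ∀ i, gl (Nat.card k) (n i) ≠ 0 := fun i => by
    rw [gl]
    have : (Nat.card k : ℚ) ≠ 0 := by positivity
    exact mul_ne_zero (pow_ne_zero _ this) (tt_ne_zero hq _)
  rw [N3.nz, h2, h1, h3, Finset.sum_div]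
  refine Finset.sum_congr rfl fun p _ => ?_
  rw [Finset.prod_div_distrib, Finset.prod_inv_distrib]
  have h5 : ∏ i, gl (Nat.card k) (n i) ≠ 0 := Finset.prod_ne_zero_iff.2 fun i _ => h4 i
  field_simp

end count

section final

variable {I E B Λ : Type*} [Fintype E] [DecidableEq I] [Fintype B] [DecidableEq B] [CommRing Λ]
  [IsDomain Λ] [Fintype I]
variable (Q : QD I E B Λ)
variable (k : Type*) [Field k] [Finite k]

/-- dimension vector -/
noncomputable def vv : I →₀ ℕ := Finsupp.equivFunOnFinite.symm (nv Q)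

/-- the term of the closed form at `1/q` -/
theorem term_eq (q : ℕ) (hq : 1 < q) (p : ∀ i, (nv Q i).Partition) :
    ((q : ℝ)⁻¹) ^ degL Q (fun i => H564.pl (p i)) * ∏ i, ∏ s ∈ Finset.range (nv Q i),
      ∏ k ∈ Finset.range (H564.pl (p i) s - H564.pl (p i) (s + 1)), (1 - ((q : ℝ)⁻¹) ^ (k + 1))⁻¹ =
    (((∏ i, (H564.ap q (p i))⁻¹) *
        (∏ a, (q : ℚ) ^ (∑ s ∈ Finset.range (nv Q (Q.src a)),
          H564.pl (p (Q.src a)) s * H564.plo 1 (fun i => H564.pl (p i)) (Q.tgt a) s)) *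
      (q : ℚ) ^ (∑ i, nv Q i * nv Q i) / (q : ℚ) ^ (∑ a, nv Q (Q.src a) * nvo Q (Q.tgt a)) : ℚ) :
        ℝ) := by
  have hq0 : (q : ℝ) ≠ 0 := by positivity
  have hap : ∀ i, ((H564.ap q (p i) : ℚ) : ℝ) =
      (q : ℝ) ^ (∑ s ∈ Finset.range (nv Q i), H564.pl (p i) s ^ 2) *
        ∏ s ∈ Finset.range (nv Q i), ∏ k ∈ Finset.range (H564.pl (p i) s - H564.pl (p i) (s + 1)),
          (1 - ((q : ℝ)⁻¹) ^ (k + 1)) := by
    intro i
    rw [H564.ap, H564.aa]
    push_cast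
    congr 1
    refine Finset.prod_congr rfl fun s _ => ?_
    rw [H564.tt]
    push_cast
    refine Finset.prod_congr rfl fun k _ => ?_
    rw [inv_pow]
  push_cast
  simp only [hap, mul_inv, Finset.prod_mul_distrib, Finset.prod_inv_distrib]
  rw [inv_zpow', degL]
  have e1 : (q : ℝ) ^ (-(∑ a, ((nv Q (Q.src a) : ℤ) * nvo Q (Q.tgt a) -
      ∑ s ∈ Finset.range (nv Q (Q.src a)), (H564.pl (p (Q.src a)) s : ℤ) *
        (H564.plo 1 (fun i => H564.pl (p i)) (Q.tgt a) s : ℕ)) -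
      ∑ i, ((nv Q i : ℤ) ^ 2 - ∑ s ∈ Finset.range (nv Q i), (H564.pl (p i) s : ℤ) ^ 2))) =
      (∏ i, (q : ℝ) ^ (∑ s ∈ Finset.range (nv Q i), H564.pl (p i) s ^ 2))⁻¹ *
      (∏ a, (q : ℝ) ^ (∑ s ∈ Finset.range (nv Q (Q.src a)),
          H564.pl (p (Q.src a)) s * H564.plo 1 (fun i => H564.pl (p i)) (Q.tgt a) s)) *
      (q : ℝ) ^ (∑ i, nv Q i * nv Q i) * ((q : ℝ) ^ (∑ a, nv Q (Q.src a) * nvo Q (Q.tgt a)))⁻¹ := by
    rw [Finset.prod_pow_eq_pow_sum, Finset.prod_pow_eq_pow_sum, ← zpow_natCast, ← zpow_natCast,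
      ← zpow_natCast, ← zpow_natCast, ← zpow_neg, ← zpow_neg, ← zpow_add₀ hq0, ← zpow_add₀ hq0,
      ← zpow_add₀ hq0]
    congr 1
    push_cast
    simp only [Finset.sum_sub_distrib, pow_two]
    ring
  rw [e1]
  field_simp

/-- framed: the generating function of `mul` at `1/q` -/
theorem closed_eq_nz :
    closed Q ((Nat.card k : ℝ)⁻¹) = ((N3.nz k ⟨Q.src, Q.tgt⟩ (N3.FV k (vv Q) 1) *
      Nat.card (N3.Lie k (N3.FV k (vv Q) 1)) /
      Nat.card (N3.Rep k (⟨Q.src, Q.tgt⟩ : N3.Qv I E) (N3.FV k (vv Q) 1)) : ℚ) : ℝ) := by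
  have hq : 1 < Nat.card k := Finite.one_lt_card
  have h1 : ∀ i, Module.finrank k (N3.FV k (vv Q) 1 (some i)) = nv Q i := by
    intro i; rw [N3.finrank_FV]; rfl
  have h2 : ∀ j, Module.finrank k (N3.FV k (vv Q) 1 j) = nvo Q j := by
    intro j; rw [N3.finrank_FV]; cases j <;> rfl
  rw [N3.card_lie, N3.card_rep]
  simp only [h1, h2]
  rw [vv, nz_eq, Finset.sum_mul, Finset.sum_div, closed, Rat.cast_sum]
  refine Finset.sum_congr rfl fun p _ => ?_
  rw [term_eq Q _ hq p]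
  push_cast
  rfl

/-- **framed identity** -/
theorem hasSum_mul_nz : HasSum (fun e : ℤ => (Q.mul e : ℝ) * ((Nat.card k : ℝ)⁻¹) ^ e)
    ((N3.nz k ⟨Q.src, Q.tgt⟩ (N3.FV k (vv Q) 1) *
      Nat.card (N3.Lie k (N3.FV k (vv Q) 1)) /
      Nat.card (N3.Rep k (⟨Q.src, Q.tgt⟩ : N3.Qv I E) (N3.FV k (vv Q) 1)) : ℚ) : ℝ) := by
  have hq : 1 < Nat.card k := Finite.one_lt_card
  have hq' : (1 : ℝ) < Nat.card k := by exact_mod_cast hq
  rw [← closed_eq_nz]
  exact hasSum_mul Q (by positivity) (inv_lt_one_of_one_lt₀ hq')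

theorem prod_unf (f : E → ℕ) (h : ∀ a, Q.tgt a = none → f a = 0) :
    ∑ a, f a = ∑ a : {a : E // Q.tgt a ≠ none}, f a.1 := by
  classical
  rw [← Finset.sum_subtype (Finset.univ.filter fun a => Q.tgt a ≠ none) (by simp) f]
  rw [Finset.sum_filter_of_ne]
  intro a _ ha h0
  exact ha (h a h0)

/-- unframed: the generating function of `mul` at `1/q` -/
theorem closed_unf_eq_nz :
    closed Q.unf ((Nat.card k : ℝ)⁻¹) = ((N3.nz k ⟨Q.src, Q.tgt⟩ (N3.FV k (vv Q) 0) *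
      Nat.card (N3.Lie k (N3.FV k (vv Q) 0)) /
      Nat.card (N3.Rep k (⟨Q.src, Q.tgt⟩ : N3.Qv I E) (N3.FV k (vv Q) 0)) : ℚ) : ℝ) := by
  have hq : 1 < Nat.card k := Finite.one_lt_card
  have h1 : ∀ i, Module.finrank k (N3.FV k (vv Q) 0 (some i)) = nv Q i := by
    intro i; rw [N3.finrank_FV]; rfl
  have h2 : ∀ i, Module.finrank k (N3.FV k (vv Q) 0 (some i)) = nvo Q (some i) := h1
  have h3 : Module.finrank k (N3.FV k (vv Q) 0 none) = 0 := by
    rw [N3.finrank_FV]; rfl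
  rw [N3.card_lie, N3.card_rep]
  simp only [h1]
  have h4 : ∑ a, nv Q (Q.src a) * Module.finrank k (N3.FV k (vv Q) 0 (Q.tgt a)) =
      ∑ a : {a : E // Q.tgt a ≠ none}, nv Q (Q.src a.1) * nvo Q (Q.tgt a.1) := by
    rw [prod_unf Q]
    · refine Finset.sum_congr rfl fun a _ => ?_
      obtain ⟨i, hi⟩ := Option.ne_none_iff_exists'.1 a.2
      rw [hi, h2]
    · intro a ha
      rw [ha, h3, mul_zero]
  rw [h4, vv, nz_eq, Finset.sum_mul, Finset.sum_div, closed, Rat.cast_sum]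
  refine Finset.sum_congr rfl fun (p : ∀ i, (nv Q i).Partition) _ => ?_
  have h5 : (∏ a, (Nat.card k : ℚ) ^ (∑ s ∈ Finset.range (nv Q (Q.src a)),
          H564.pl (p (Q.src a)) s * H564.plo 0 (fun i => H564.pl (p i)) (Q.tgt a) s)) =
      ∏ a : {a : E // Q.tgt a ≠ none}, (Nat.card k : ℚ) ^ (∑ s ∈ Finset.range (nv Q (Q.src a.1)),
          H564.pl (p (Q.src a.1)) s * H564.plo 1 (fun i => H564.pl (p i)) (Q.tgt a.1) s) := by
    rw [Finset.prod_pow_eq_pow_sum, Finset.prod_pow_eq_pow_sum]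
    congr 1
    rw [prod_unf Q]
    · refine Finset.sum_congr rfl fun a _ => Finset.sum_congr rfl fun s _ => ?_
      obtain ⟨i, hi⟩ := Option.ne_none_iff_exists'.1 a.2
      rw [hi]
      rfl
    · intro a ha
      refine Finset.sum_eq_zero fun s _ => ?_
      rw [ha]
      simp [H564.plo]
  have h6 := congrArg (fun z : ℚ => ((∏ i, (H564.ap (Nat.card k) (p i))⁻¹) * z *
    (Nat.card k : ℚ) ^ (∑ i, nv Q i * nv Q i) / (Nat.card k : ℚ) ^
      (∑ a : {a : E // Q.tgt a ≠ none}, nv Q (Q.src a.1) * nvo Q (Q.tgt a.1)))) h5.symm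
  refine (term_eq Q.unf _ hq p).trans (congrArg (fun z : ℚ => (z : ℝ)) ?_)
  rw [Nat.cast_pow, Nat.cast_pow]
  exact h6

/-- **unframed identity** -/
theorem hasSum_mul_unf_nz : HasSum (fun e : ℤ => (Q.unf.mul e : ℝ) * ((Nat.card k : ℝ)⁻¹) ^ e)
    ((N3.nz k ⟨Q.src, Q.tgt⟩ (N3.FV k (vv Q) 0) *
      Nat.card (N3.Lie k (N3.FV k (vv Q) 0)) /
      Nat.card (N3.Rep k (⟨Q.src, Q.tgt⟩ : N3.Qv I E) (N3.FV k (vv Q) 0)) : ℚ) : ℝ) := by
  have hq : 1 < Nat.card k := Finite.one_lt_card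
  have hq' : (1 : ℝ) < Nat.card k := by exact_mod_cast hq
  rw [← closed_unf_eq_nz]
  exact hasSum_mul Q.unf (by positivity) (inv_lt_one_of_one_lt₀ hq')

end final

end Vale.Agent.P291.H664
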