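import Mathlib

/-!
# P291, stage 2, H5: generating function of multisets of natural numbers, sums over products
-/

open scoped ENNReal

namespace Vale.Agent.P291.H664

/-- sum over a finite product of index types -/
theorem tsum_pi.{u, v} {J : Type u} [Fintype J] : ∀ (X : J → Type v) (g : ∀ j, X j → ℝ≥0∞),
    ∑' x : (∀ j, X j), ∏ j, g j (x j) = ∏ j, ∑' y, g j y := by
  classical
  refine Fintype.induction_empty_option (P := fun J inst => ∀ (X : J → Type v)
    (g : ∀ j, X j → ℝ≥0∞), ∑' x : (∀ j, X j), (Finset.prod (@Finset.univ J inst) fun j => g j (x j)) =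
      Finset.prod (@Finset.univ J inst) fun j => ∑' y, g j y) ?_ ?_ ?_ J
  · intro α β _ e h X g
    let _ : Fintype α := Fintype.ofEquiv β e.symm
    have h1 := h (fun a => X (e a)) (fun a => g (e a))
    have h2 : ∑' x : (∀ j, X j), ∏ j, g j (x j) =
        ∑' x : (∀ a, X (e a)), ∏ a, g (e a) (x a) := by
      rw [← (Equiv.piCongrLeft X e).tsum_eq]
      refine tsum_congr fun x => ?_
      rw [← Equiv.prod_comp e]
      refine Finset.prod_congr (by ext; simp) fun a _ => ?_
      rw [Equiv.piCongrLeft_apply_apply]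
    rw [h2, ← Equiv.prod_comp e]
    exact h1.trans (Finset.prod_congr (by ext; simp) fun _ _ => rfl)
  · intro X g
    simp
  · intro α _ h X g
    rw [← (Equiv.piOptionEquivProd (β := X)).symm.tsum_eq, ENNReal.tsum_prod']
    simp only [Fintype.prod_option]
    rw [← ENNReal.tsum_mul_right]
    refine tsum_congr fun y => ?_
    rw [← h (fun a => X (some a)) (fun a => g (some a)), ← ENNReal.tsum_mul_left]
    rfl

section sym

/-- adding `j` to all elements of `0 ::ₛ s` -/
def shf (n : ℕ) (p : Sym ℕ n × ℕ) : Sym ℕ (n + 1) := (0 ::ₛ p.1).map (· + p.2)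

theorem shf_coe (n : ℕ) (p : Sym ℕ n × ℕ) :
    (shf n p : Multiset ℕ) = (0 ::ₘ (p.1 : Multiset ℕ)).map (· + p.2) := rfl

theorem shf_bij (n : ℕ) : Function.Bijective (shf n) := by
  constructor
  · rintro ⟨s, i⟩ ⟨t, j⟩ h
    have h1 : (0 ::ₘ (s : Multiset ℕ)).map (· + i) = (0 ::ₘ (t : Multiset ℕ)).map (· + j) := by
      rw [← shf_coe n (s, i), ← shf_coe n (t, j), h]
    have hij : i = j := by
      have a1 : i ∈ (0 ::ₘ (t : Multiset ℕ)).map (· + j) := by
        rw [← h1]; exact Multiset.mem_map.2 ⟨0, Multiset.mem_cons_self _ _, by simp⟩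
      have a2 : j ∈ (0 ::ₘ (s : Multiset ℕ)).map (· + i) := by
        rw [h1]; exact Multiset.mem_map.2 ⟨0, Multiset.mem_cons_self _ _, by simp⟩
      obtain ⟨x, _, hx⟩ := Multiset.mem_map.1 a1
      obtain ⟨y, _, hy⟩ := Multiset.mem_map.1 a2
      omega
    subst hij
    have h2 := Multiset.map_injective (fun a b (hab : a + i = b + i) => by omega) h1
    have h3 : (s : Multiset ℕ) = t := (Multiset.cons_inj_right 0).1 h2
    rw [Prod.mk.injEq]
    exact ⟨Sym.coe_injective h3, rfl⟩
  · intro t
    have hne : (t : Multiset ℕ) ≠ 0 := by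
      intro h0
      have := t.2
      have h1 : (t : Multiset ℕ).card = n + 1 := this
      rw [h0] at h1
      simp at h1
    obtain ⟨j, hj, hmin⟩ : ∃ j ∈ (t : Multiset ℕ), ∀ k ∈ (t : Multiset ℕ), j ≤ k := by
      have hex : ∃ j, j ∈ (t : Multiset ℕ) := Multiset.exists_mem_of_ne_zero hne
      classical
      exact ⟨Nat.find hex, Nat.find_spec hex, fun k hk => Nat.find_min' hex hk⟩
    have h0 : 0 ∈ (t : Multiset ℕ).map (· - j) := Multiset.mem_map.2 ⟨j, hj, by simp⟩
    obtain ⟨u, hu⟩ := Multiset.exists_cons_of_mem h0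
    have hc : u.card = n := by
      have h1 : (t : Multiset ℕ).card = n + 1 := t.2
      have h2 := congrArg Multiset.card hu
      rw [Multiset.card_map, h1, Multiset.card_cons] at h2
      omega
    refine ⟨(⟨u, hc⟩, j), ?_⟩
    apply Sym.coe_injective
    rw [shf_coe]
    change (0 ::ₘ u).map (· + j) = _
    rw [← hu, Multiset.map_map]
    conv_rhs => rw [← Multiset.map_id (t : Multiset ℕ)]
    refine Multiset.map_congr rfl fun k hk => ?_
    have := hmin k hk
    simp only [Function.comp_apply, id_eq]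
    omega

theorem shf_sum (n : ℕ) (p : Sym ℕ n × ℕ) :
    (shf n p : Multiset ℕ).sum = (p.1 : Multiset ℕ).sum + (n + 1) * p.2 := by
  rw [shf_coe, Multiset.sum_map_add]
  simp only [Multiset.map_id', Multiset.sum_cons, zero_add, Multiset.map_const',
    Multiset.sum_replicate, Multiset.card_cons, smul_eq_mul]
  have h1 : (p.1 : Multiset ℕ).card = n := p.1.2
  rw [h1]

theorem sym_series (T : ℝ≥0∞) (n : ℕ) :
    ∑' s : Sym ℕ n, T ^ (s : Multiset ℕ).sum = ∏ k ∈ Finset.range n, (1 - T ^ (k + 1))⁻¹ := by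
  induction n with
  | zero =>
    rw [tsum_eq_single (default : Sym ℕ 0) (fun b hb => absurd (Subsingleton.elim _ _) hb)]
    have : ((default : Sym ℕ 0) : Multiset ℕ) = 0 := rfl
    rw [this]
    simp
  | succ n ih =>
    rw [← (Equiv.ofBijective _ (shf_bij n)).tsum_eq, ENNReal.tsum_prod', Finset.prod_range_succ,
      ← ih, ← ENNReal.tsum_mul_right]
    refine tsum_congr fun s => ?_
    rw [← ENNReal.tsum_geometric, ← ENNReal.tsum_mul_left]
    refine tsum_congr fun j => ?_
    rw [Equiv.ofBijective_apply, shf_sum, pow_add, pow_mul]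

end sym

end Vale.Agent.P291.H664
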