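import Vale.Agent.P291.H664.Exist
import Vale.Agent.P291.H664.Series

/-!
# P291, stage 2, H5: closed form of the generating function of `mul`
-/

set_option linter.unusedSectionVars false

open MvPolynomial

open scoped ENNReal

namespace Vale.Agent.P291.H664

variable {I E B Λ : Type*} [Fintype E] [DecidableEq I] [Fintype B] [DecidableEq B] [CommRing Λ]
  [IsDomain Λ]
variable (Q : QD I E B Λ)

/-- partitions with a multiset of exponents for every part size -/
abbrev Par : Type _ := Σ p : (∀ i, (nv Q i).Partition), ∀ i, ∀ s : Fin (nv Q i),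
  Sym ℕ (H564.pl (p i) s - H564.pl (p i) (s + 1))

theorem exists_par (z : Par Q) : ∃ x : Q.Idx0,
    (∀ i (s : Fin (nv Q i)), ms Q x i s = (z.2 i s : Multiset ℕ)) ∧
      ∀ i, L Q x.1.1 i = H564.pl (z.1 i) := by
  let S : I → ℕ → Multiset ℕ := fun i s =>
    if h : s < nv Q i then (z.2 i ⟨s, h⟩ : Multiset ℕ) else 0
  have hS : ∀ i s, (S i s).card + H564.pl (z.1 i) (s + 1) = H564.pl (z.1 i) s := by
    intro i s
    simp only [S]
    split_ifs with h
    · have h1 : ((z.2 i ⟨s, h⟩ : Multiset ℕ)).card = _ := (z.2 i ⟨s, h⟩).2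
      rw [h1]
      have := H564.pl_anti (z.1 i) s
      simp only
      omega
    · rw [H564.pl_zero (z.1 i) (by omega), H564.pl_zero (z.1 i) (by omega)]
      simp
  obtain ⟨x, hx⟩ := exists_idx Q (fun i => H564.pl (z.1 i)) S hS
    (fun i s hs => H564.pl_zero _ hs) (fun i => H564.pl_sum _)
  refine ⟨x, fun i s => ?_, fun i => ?_⟩
  · rw [hx]
    simp [S]
  · exact L_eq_of_card (N := nv Q i) (fun s hs => L_zero Q x.2.1 i hs)
      (fun s hs => H564.pl_zero _ hs) (fun s => (ms Q x i s).card) (fun s => card_ms Q x i s)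
      (fun s => by rw [hx]; exact hS i s)

/-- the index with given parameters -/
noncomputable def toIdx (z : Par Q) : Q.Idx := Quotient.mk _ (exists_par Q z).choose

theorem toIdx_bij : Function.Bijective (toIdx Q) := by
  constructor
  · rintro ⟨p, S⟩ ⟨p', S'⟩ h
    have h1 := (exists_par Q ⟨p, S⟩).choose_spec
    have h2 := (exists_par Q ⟨p', S'⟩).choose_spec
    have h3 : Q.idxSetoid.r (exists_par Q ⟨p, S⟩).choose (exists_par Q ⟨p', S'⟩).choose :=
      Quotient.exact h
    have h4 := fun i s => ms_of_conj Q h3 i s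
    have h5 := L_eq_of_ms Q h4
    have hp : p = p' := by
      funext i
      apply H564.pl_injective
      rw [← h1.2 i, ← h2.2 i, h5]
    subst hp
    congr 1
    funext i s
    apply Sym.coe_injective
    rw [← h1.1 i s, ← h2.1 i s, h4]
  · intro y
    induction y using Quotient.inductionOn with
    | h x =>
      have hp : ∀ i, ∃ p : (nv Q i).Partition, H564.pl p = L Q x.1.1 i := fun i =>
        H564.exists_pl (nv Q i) (L Q x.1.1 i) (L_anti Q _ i) (fun s hs => L_zero Q x.2.1 i hs)
          (L_sum Q x.2.1 i le_rfl)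
      choose p hp using hp
      have hc : ∀ i s, (ms Q x i s).card = H564.pl (p i) s - H564.pl (p i) (s + 1) := by
        intro i s
        have := card_ms Q x i s
        rw [hp]
        omega
      refine ⟨⟨p, fun i s => ⟨ms Q x i s, hc i s⟩⟩, ?_⟩
      have h1 := (exists_par Q ⟨p, fun i s => ⟨ms Q x i s, hc i s⟩⟩).choose_spec
      refine Quotient.sound (conj_of_ms Q fun i s => ?_)
      by_cases hs : s < nv Q i
      · exact h1.1 i ⟨s, hs⟩
      · have h2 := card_ms Q x i s
        rw [L_zero Q x.2.1 i (by omega), L_zero Q x.2.1 i (by omega)] at h2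
        set x' := (exists_par Q ⟨p, fun i s => ⟨ms Q x i s, hc i s⟩⟩).choose
        have h3 := card_ms Q x' i s
        rw [L_zero Q x'.2.1 i (by omega), L_zero Q x'.2.1 i (by omega)] at h3
        rw [Multiset.card_eq_zero.1 (show (ms Q x i s).card = 0 by omega),
          Multiset.card_eq_zero.1 (show (ms Q x' i s).card = 0 by omega)]

/-- MAIN: the index set is the set of tuples of partitions with a multiset of exponents for every
part size -/
noncomputable def parEquiv : Par Q ≃ Q.Idx := Equiv.ofBijective _ (toIdx_bij Q)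

theorem degI_parEquiv [Fintype I] (z : Par Q) : Q.degI (parEquiv Q z) =
    degL Q (fun i => H564.pl (z.1 i)) + ((∑ i, ∑ s, (z.2 i s : Multiset ℕ).sum : ℕ) : ℤ) := by
  have h1 := (exists_par Q z).choose_spec
  change Q.degI (Quotient.mk _ _) = _
  rw [degI_mk', deg0_eq]
  congr 1
  · congr 1
    funext i
    exact h1.2 i
  · congr 1
    refine Finset.sum_congr rfl fun i _ => ?_
    rw [Finset.sum_range]
    refine Finset.sum_congr rfl fun s _ => ?_
    rw [h1.1 i s]

/-- closed form, generic `T` -/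
theorem tsum_idx [Fintype I] (T : ℝ≥0∞) (h0 : T ≠ 0) (h1 : T ≠ ⊤) :
    ∑' x : Q.Idx, T ^ Q.degI x = ∑ p : (∀ i, (nv Q i).Partition),
      T ^ degL Q (fun i => H564.pl (p i)) * ∏ i, ∏ s ∈ Finset.range (nv Q i),
        ∏ k ∈ Finset.range (H564.pl (p i) s - H564.pl (p i) (s + 1)), (1 - T ^ (k + 1))⁻¹ := by
  rw [← (parEquiv Q).tsum_eq, ENNReal.tsum_sigma', tsum_fintype]
  refine Finset.sum_congr rfl fun p _ => ?_
  have h2 : ∀ S : (∀ i, ∀ s : Fin (nv Q i), Sym ℕ (H564.pl (p i) s - H564.pl (p i) (s + 1))),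
      T ^ Q.degI (parEquiv Q ⟨p, S⟩) = T ^ degL Q (fun i => H564.pl (p i)) *
        ∏ i, ∏ s, T ^ (S i s : Multiset ℕ).sum := by
    intro S
    rw [degI_parEquiv, ENNReal.zpow_add h0 h1, zpow_natCast, ← Finset.prod_pow_eq_pow_sum]
    simp only [Finset.prod_pow_eq_pow_sum]
  simp only [h2]
  rw [ENNReal.tsum_mul_left]
  congr 1
  rw [tsum_pi (fun i => ∀ s : Fin (nv Q i), Sym ℕ (H564.pl (p i) s - H564.pl (p i) (s + 1)))
    (fun i x => ∏ s, T ^ (x s : Multiset ℕ).sum)]
  refine Finset.prod_congr rfl fun i _ => ?_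
  rw [tsum_pi (fun s : Fin (nv Q i) => Sym ℕ (H564.pl (p i) s - H564.pl (p i) (s + 1)))
    (fun s x => T ^ (x : Multiset ℕ).sum), Finset.prod_range]
  refine Finset.prod_congr rfl fun s _ => ?_
  exact sym_series T _

end Vale.Agent.P291.H664
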