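import Vale.Agent.P291.H664.Orb

/-!
# P291, stage 2, H5: existence of index data with given multisets, degrees
-/

set_option linter.unusedSectionVars false

open MvPolynomial

namespace Vale.Agent.P291.H664

variable {I E B Λ : Type*} [Fintype E] [DecidableEq I] [Fintype B] [DecidableEq B] [CommRing Λ]
  [IsDomain Λ]
variable (Q : QD I E B Λ)

theorem count_filter_snd (M : Multiset (ℤ × ℕ)) (a : ℤ) (e : ℕ) :
    ((M.filter fun p => p.1 = a).map Prod.snd).count e = M.count (a, e) := by
  rw [Multiset.count_map, Multiset.filter_filter, Multiset.count_eq_card_filter_eq]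
  congr 1
  refine Multiset.filter_congr fun p _ => ?_
  constructor
  · rintro ⟨h1, h2⟩
    ext
    · exact h2.symm
    · exact h1
  · rintro rfl
    exact ⟨rfl, rfl⟩

theorem abel (l : ℕ → ℤ) (N : ℕ) : ∑ s ∈ Finset.range N, (s : ℤ) * (l s - l (s + 1)) =
    ∑ s ∈ Finset.range N, l s - l 0 - ((N : ℤ) - 1) * l N := by
  induction N with
  | zero => simp
  | succ N ih =>
    rw [Finset.sum_range_succ, Finset.sum_range_succ, ih]
    push_cast
    ring

/-- the multiset of pairs of a vertex -/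
def MM (n : ℕ) (l0 : ℕ) (S : ℕ → Multiset ℕ) : Multiset (ℤ × ℕ) :=
  ∑ s ∈ Finset.range n, (S s).map (fun e => (-(s : ℤ), e)) +
    Multiset.replicate (n - l0) ((1 : ℤ), 0)

theorem mem_MM {n l0 : ℕ} {S : ℕ → Multiset ℕ} {p : ℤ × ℕ} (h : p ∈ MM n l0 S) :
    p.1 ≤ 1 ∧ (p.1 = 1 → p.2 = 0) := by
  unfold MM at h
  rcases Multiset.mem_add.1 h with h | h
  · rw [Multiset.mem_sum] at h
    obtain ⟨s, _, hs⟩ := h
    obtain ⟨e, _, rfl⟩ := Multiset.mem_map.1 hs
    simp only
    exact ⟨by omega, fun h => by omega⟩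
  · rw [Multiset.eq_of_mem_replicate h]
    simp

theorem card_MM {n : ℕ} {l : ℕ → ℕ} {S : ℕ → Multiset ℕ} (hS : ∀ s, (S s).card + l (s + 1) = l s)
    (h0 : l n = 0) (hl : l 0 ≤ n) : (MM n (l 0) S).card = n := by
  unfold MM
  rw [Multiset.card_add, Multiset.card_replicate, Multiset.card_sum]
  simp only [Multiset.card_map]
  have h1 : ∀ N, ∑ s ∈ Finset.range N, (S s).card + l N = l 0 := by
    intro N
    induction N with
    | zero => simp
    | succ N ih =>
      rw [Finset.sum_range_succ]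
      have := hS N
      omega
  have := h1 n
  omega

theorem sum_MM {n : ℕ} {l : ℕ → ℕ} {S : ℕ → Multiset ℕ} (hS : ∀ s, (S s).card + l (s + 1) = l s)
    (h0 : l n = 0) (hl : l 0 ≤ n) (hsum : ∑ s ∈ Finset.range n, l s = n) :
    ((MM n (l 0) S).map Prod.fst).sum = 0 := by
  unfold MM
  rw [Multiset.map_add, Multiset.sum_add, Multiset.map_replicate, Multiset.sum_replicate]
  have h1 : ((∑ s ∈ Finset.range n, (S s).map (fun e => (-(s : ℤ), e))).map Prod.fst).sum =
      ∑ s ∈ Finset.range n, -((s : ℤ) * ((l s : ℤ) - l (s + 1))) := by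
    rw [← Multiset.coe_mapAddMonoidHom, map_sum, ← Multiset.coe_sumAddMonoidHom, map_sum]
    refine Finset.sum_congr rfl fun s _ => ?_
    rw [Multiset.coe_mapAddMonoidHom, Multiset.coe_sumAddMonoidHom, Multiset.map_map]
    have h2 : (Prod.fst ∘ fun e : ℕ => (-(s : ℤ), e)) = fun _ => -(s : ℤ) := rfl
    rw [h2, Multiset.map_const', Multiset.sum_replicate]
    have h3 := hS s
    have h4 : ((S s).card : ℤ) = (l s : ℤ) - l (s + 1) := by
      rw [← h3]; push_cast; ring
    rw [nsmul_eq_mul, h4]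
    ring
  rw [h1, Finset.sum_neg_distrib, abel (fun s => (l s : ℤ))]
  have h2 : (∑ s ∈ Finset.range n, (l s : ℤ)) = n := by exact_mod_cast hsum
  rw [h2, h0]
  simp only [Nat.cast_zero, mul_zero, sub_zero, nsmul_eq_mul, mul_one]
  push_cast [Nat.cast_sub hl]
  ring

theorem count_MM {n l0 : ℕ} {S : ℕ → Multiset ℕ} (s e : ℕ) :
    (MM n l0 S).count (-(s : ℤ), e) = if s < n then (S s).count e else 0 := by
  unfold MM
  rw [Multiset.count_add, Multiset.count_replicate, Multiset.count_sum']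
  have h1 : ¬ ((1 : ℤ), 0) = (-(s : ℤ), e) := by
    intro h
    have := congrArg Prod.fst h
    simp only at this
    omega
  rw [if_neg h1, add_zero]
  have h2 : ∀ s' ∈ Finset.range n, ((S s').map (fun e => (-(s' : ℤ), e))).count (-(s : ℤ), e) =
      if s' = s then (S s).count e else 0 := by
    intro s' _
    split_ifs with h
    · subst h
      exact Multiset.count_map_eq_count' _ _ (fun a b hab => (Prod.mk.injEq _ _ _ _ ▸ hab).2) e
    · rw [Multiset.count_eq_zero]
      intro hm
      obtain ⟨e', _, he'⟩ := Multiset.mem_map.1 hm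
      have := congrArg Prod.fst he'
      simp only at this
      omega
  rw [Finset.sum_congr rfl h2, Finset.sum_ite_eq']
  simp

theorem exists_idx (l : I → ℕ → ℕ) (S : I → ℕ → Multiset ℕ)
    (hS : ∀ i s, (S i s).card + l i (s + 1) = l i s) (h0 : ∀ i s, nv Q i ≤ s → l i s = 0)
    (hsum : ∀ i, ∑ s ∈ Finset.range (nv Q i), l i s = nv Q i) :
    ∃ x : Q.Idx0, ∀ i s, ms Q x i s = S i s := by
  classical
  have hl : ∀ i, l i 0 ≤ nv Q i := by
    intro i
    rcases Nat.eq_zero_or_pos (nv Q i) with h | h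
    · rw [h0 i 0 (by omega)]; omega
    · conv_rhs => rw [← hsum i]
      exact Finset.single_le_sum (f := fun s => l i s) (fun _ _ => Nat.zero_le _)
        (Finset.mem_range.2 h)
  have hf : ∀ i, ∃ f : {b // Q.vx b = i} → ℤ × ℕ,
      (Finset.univ : Finset {b // Q.vx b = i}).val.map f = MM (nv Q i) (l i 0) (S i) := by
    intro i
    refine exists_fun _ ?_
    rw [card_MM (hS i) (h0 i _ le_rfl) (hl i), Fintype.card_subtype]
    rfl
  choose f hf using hf
  let g : B → ℤ × ℕ := fun b => f (Q.vx b) ⟨b, rfl⟩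
  have hg : ∀ i, (Finset.univ.filter fun b => Q.vx b = i).val.map g =
      MM (nv Q i) (l i 0) (S i) := by
    intro i
    rw [← hf i]
    have h1 : (Finset.univ.filter fun b => Q.vx b = i).val =
        (Finset.univ : Finset {b // Q.vx b = i}).val.map Subtype.val := by
      have := Finset.subtype_map_of_mem (s := Finset.univ.filter fun b => Q.vx b = i)
        (p := fun b => Q.vx b = i) (fun b hb => (Finset.mem_filter.1 hb).2)
      rw [← this, Finset.map_val]
      congr 1
      congr 1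
      ext ⟨b, hb⟩
      simp [hb]
    rw [h1, Multiset.map_map]
    refine Multiset.map_congr rfl ?_
    rintro ⟨b, rfl⟩ _
    rfl
  have hmem : ∀ b, g b ∈ MM (nv Q (Q.vx b)) (l (Q.vx b) 0) (S (Q.vx b)) := by
    intro b
    rw [← hg]
    exact Multiset.mem_map_of_mem g (Finset.mem_filter.2 ⟨Finset.mem_univ b, rfl⟩)
  have hOm : Q.Om (fun b => (g b).1) := by
    refine ⟨fun b => (mem_MM (hmem b)).1, fun i => ?_⟩
    have h1 := sum_MM (hS i) (h0 i _ le_rfl) (hl i) (hsum i)
    rw [← hg, Multiset.map_map] at h1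
    exact h1
  let x : Q.Idx0 := ⟨(fun b => (g b).1, Finsupp.equivFunOnFinite.symm fun b => (g b).2), hOm,
    fun b hb => (mem_MM (hmem b)).2 hb⟩
  refine ⟨x, fun i s => ?_⟩
  ext e
  rw [count_ms]
  have h1 : (MM (nv Q i) (l i 0) (S i)).count (-(s : ℤ), e) = (S i s).count e := by
    rw [count_MM]
    split_ifs with h
    · rfl
    · have h2 := hS i s
      rw [h0 i s (by omega), h0 i (s + 1) (by omega)] at h2
      have h3 : S i s = 0 := Multiset.card_eq_zero.1 (by omega)
      rw [h3]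
      simp
  rw [← h1, ← hg, Multiset.count_map]
  change _ = Finset.card (Finset.filter _ _)
  rw [Finset.filter_filter]
  congr 1
  ext b
  simp only [Finset.mem_filter, Finset.mem_univ, true_and]
  constructor
  · rintro ⟨h2, h3, h4⟩
    refine ⟨h2, ?_⟩
    have h3' : (g b).1 = -(s : ℤ) := h3
    have h4' : (g b).2 = e := h4
    rw [← h3', ← h4']
  · rintro ⟨h2, h3⟩
    refine ⟨h2, ?_, ?_⟩
    · change (g b).1 = _
      rw [← h3]
    · change (g b).2 = _
      rw [← h3]

theorem sum_ms [Fintype I] (x : Q.Idx0) : (x.1.2.sum fun _ n => n) =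
    ∑ i, ∑ s ∈ Finset.range (nv Q i), (ms Q x i s).sum := by
  rw [Finsupp.sum_fintype _ _ (fun _ => rfl)]
  have h1 : ∀ i s, (ms Q x i s).sum =
      ∑ b, if Q.vx b = i then (if x.1.1 b = -(s : ℤ) then x.1.2 b else 0) else 0 := by
    intro i s
    change ∑ b ∈ Finset.univ.filter (fun b => Q.vx b = i ∧ x.1.1 b = -(s : ℤ)), x.1.2 b = _
    rw [Finset.sum_filter]
    refine Finset.sum_congr rfl fun b _ => ?_
    by_cases h1 : Q.vx b = i <;> by_cases h2 : x.1.1 b = -(s : ℤ) <;> simp [h1, h2]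
  simp only [h1]
  have h2 : ∀ i, (∑ s ∈ Finset.range (nv Q i),
      ∑ b, if Q.vx b = i then (if x.1.1 b = -(s : ℤ) then x.1.2 b else 0) else 0) =
      ∑ b, if Q.vx b = i then x.1.2 b else 0 := by
    intro i
    rw [Finset.sum_comm]
    refine Finset.sum_congr rfl fun b _ => ?_
    by_cases hb : Q.vx b = i
    · simp only [if_pos hb]
      by_cases h3 : x.1.1 b = 1
      · rw [x.2.2 b h3]
        simp
      · have h4 := x.2.1.1 b
        have h5 := one_sub_le Q x.2.1 b
        rw [hb] at h5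
        have h6 : (-x.1.1 b).toNat < nv Q i := by omega
        rw [Finset.sum_eq_single_of_mem _ (Finset.mem_range.2 h6)]
        · rw [if_pos (by omega)]
        · intro s _ hs
          rw [if_neg (by omega)]
    · simp only [if_neg hb, Finset.sum_const_zero]
  rw [Finset.sum_congr rfl fun i _ => h2 i, Finset.sum_comm]
  refine Finset.sum_congr rfl fun b _ => ?_
  rw [Finset.sum_ite_eq]
  simp

theorem deg0_eq [Fintype I] (x : Q.Idx0) : Q.deg0 x = degL Q (L Q x.1.1) +
    ((∑ i, ∑ s ∈ Finset.range (nv Q i), (ms Q x i s).sum : ℕ) : ℤ) := by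
  unfold QD.deg0
  rw [degE_eq Q x.2.1, sum_ms]

theorem degI_mk' [Fintype I] (x : Q.Idx0) : Q.degI (Quotient.mk _ x) = Q.deg0 x := by
  have h : Q.idxSetoid.r (Quotient.out (Quotient.mk Q.idxSetoid x)) x := Quotient.mk_out x
  unfold QD.degI
  have h1 : ∀ i s, ms Q (Quotient.out (Quotient.mk Q.idxSetoid x)) i s = ms Q x i s :=
    fun i s => ms_of_conj Q h i s
  rw [deg0_eq, deg0_eq]
  simp only [h1]
  have h2 : L Q (Quotient.out (Quotient.mk Q.idxSetoid x)).1.1 = L Q x.1.1 :=
    funext fun i => L_eq_of_ms Q h1 i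
  rw [h2]

end Vale.Agent.P291.H664
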