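import Vale.Agent.P291.HCore
import Vale.Agent.P291.H564.Types
import Vale.Agent.P291.H564.Bridge

/-!
# P291, stage 2, H5: levels of a cocharacter with entries at most one and charge zero
-/

set_option linter.unusedSectionVars false

open MvPolynomial

namespace Vale.Agent.P291.H664

variable {I E B Λ : Type*} [Fintype E] [DecidableEq I] [Fintype B] [DecidableEq B] [CommRing Λ]
  [IsDomain Λ]
variable (Q : QD I E B Λ)

/-- number of boxes at the vertex `i` -/
def nv (i : I) : ℕ := (Finset.univ.filter fun b => Q.vx b = i).card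

/-- number of boxes at `i` with `1 - lam b > s` -/
def L (lam : B → ℤ) (i : I) (s : ℕ) : ℕ :=
  (Finset.univ.filter fun b => Q.vx b = i ∧ (s : ℤ) < 1 - lam b).card

theorem L_anti (lam : B → ℤ) (i : I) (s : ℕ) : L Q lam i (s + 1) ≤ L Q lam i s := by
  refine Finset.card_le_card fun b => ?_
  simp only [Finset.mem_filter, Finset.mem_univ, true_and]
  rintro ⟨h1, h2⟩
  push_cast at h2
  exact ⟨h1, by omega⟩

theorem sum_one_sub {lam : B → ℤ} (h : Q.Om lam) (i : I) :
    ∑ b ∈ Finset.univ.filter (fun b => Q.vx b = i), (1 - lam b) = nv Q i := by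
  rw [Finset.sum_sub_distrib]
  have := h.2 i
  unfold QD.chg at this
  rw [this]
  simp [nv]

theorem one_sub_le {lam : B → ℤ} (h : Q.Om lam) (b : B) : 1 - lam b ≤ nv Q (Q.vx b) := by
  rw [← sum_one_sub Q h]
  refine Finset.single_le_sum (f := fun b => 1 - lam b) (fun c _ => ?_)
    (Finset.mem_filter.2 ⟨Finset.mem_univ b, rfl⟩)
  have := h.1 c
  show 0 ≤ 1 - lam c
  omega

theorem L_zero {lam : B → ℤ} (h : Q.Om lam) (i : I) {s : ℕ} (hs : nv Q i ≤ s) :
    L Q lam i s = 0 := by
  unfold L
  rw [Finset.card_eq_zero, Finset.filter_eq_empty_iff]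
  rintro b _ ⟨h1, h2⟩
  have := one_sub_le Q h b
  rw [h1] at this
  omega

/-- `(a - c)_+` counts levels -/
theorem toNat_lev (a c : ℤ) (hc : 0 ≤ c) (N : ℕ) (hN : a ≤ N) :
    (a - c).toNat = ∑ s ∈ Finset.range N, if c ≤ (s : ℤ) ∧ (s : ℤ) < a then 1 else 0 := by
  rw [← Finset.card_filter]
  have h1 : (Finset.range N).filter (fun s : ℕ => c ≤ (s : ℤ) ∧ (s : ℤ) < a) =
      Finset.Ico c.toNat a.toNat := by
    ext s
    simp only [Finset.mem_filter, Finset.mem_range, Finset.mem_Ico]
    omega
  rw [h1, Nat.card_Ico]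
  omega

theorem L_sum {lam : B → ℤ} (h : Q.Om lam) (i : I) {N : ℕ} (hN : nv Q i ≤ N) :
    ∑ s ∈ Finset.range N, L Q lam i s = nv Q i := by
  have h1 : ∀ s, L Q lam i s = ∑ b ∈ Finset.univ.filter (fun b => Q.vx b = i),
      if (s : ℤ) < 1 - lam b then 1 else 0 := by
    intro s
    unfold L
    rw [← Finset.card_filter, Finset.filter_filter]
  simp only [h1]
  rw [Finset.sum_comm]
  have h2 : ∀ b ∈ Finset.univ.filter (fun b => Q.vx b = i),
      (∑ s ∈ Finset.range N, if (s : ℤ) < 1 - lam b then 1 else 0) = (1 - lam b).toNat := by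
    intro b hb
    have h3 := one_sub_le Q h b
    rw [(Finset.mem_filter.1 hb).2] at h3
    have h4 := toNat_lev (1 - lam b) 0 le_rfl N (by omega)
    rw [sub_zero] at h4
    rw [h4]
    refine Finset.sum_congr rfl fun s _ => ?_
    refine if_congr ?_ rfl rfl
    constructor
    · intro hs; exact ⟨by omega, hs⟩
    · exact fun hs => hs.2
  rw [Finset.sum_congr rfl h2]
  have h5 : ((∑ b ∈ Finset.univ.filter (fun b => Q.vx b = i), (1 - lam b).toNat : ℕ) : ℤ) =
      nv Q i := by
    rw [← sum_one_sub Q h]
    push_cast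
    refine Finset.sum_congr rfl fun b _ => ?_
    have := h.1 b
    omega
  exact_mod_cast h5

/-- number of extended boxes at `j` with `1 - lam > s` -/
def Lo (lam : B → ℤ) (j : Option I) (s : ℕ) : ℕ :=
  (Finset.univ.filter fun o => Q.vo o = j ∧ (s : ℤ) < 1 - ext lam o).card

theorem Lo_eq (lam : B → ℤ) (j : Option I) (s : ℕ) :
    Lo Q lam j s = H564.plo 1 (L Q lam) j s := by
  unfold Lo
  cases j with
  | none =>
    have h1 : (Finset.univ.filter fun o => Q.vo o = none ∧ (s : ℤ) < 1 - ext lam o) =
        if s = 0 then {none} else ∅ := by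
      ext o
      cases o with
      | none =>
        by_cases hs : s = 0
        · simp [QD.vo, ext, hs]
        · simp [QD.vo, ext, hs]
      | some b =>
        by_cases hs : s = 0
        · simp [QD.vo, hs]
        · simp [QD.vo, hs]
    rw [h1]
    by_cases hs : s = 0
    · simp [H564.plo, hs]
    · simp [H564.plo, hs]
  | some i =>
    simp only [H564.plo]
    unfold L
    symm
    refine Finset.card_bij (fun b _ => some b) ?_ ?_ ?_
    · intro b hb
      simpa [QD.vo, ext] using hb
    · intro a _ b _ hab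
      exact Option.some_injective _ hab
    · intro o ho
      cases o with
      | none => simp [QD.vo] at ho
      | some b => exact ⟨b, by simpa [QD.vo, ext] using ho, rfl⟩

/-- number of extended boxes -/
def nvo : Option I → ℕ
  | none => 1
  | some i => nv Q i

theorem nvo_card (j : Option I) :
    (Finset.univ.filter fun o => Q.vo o = j).card = nvo Q j := by
  cases j with
  | none =>
    have h1 : (Finset.univ.filter fun o => Q.vo o = none) = {none} := by
      ext o
      cases o <;> simp [QD.vo]
    rw [h1]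
    rfl
  | some i =>
    unfold nvo nv
    symm
    refine Finset.card_bij (fun b _ => some b) ?_ ?_ ?_
    · intro b hb
      simpa [QD.vo] using hb
    · intro a _ b _ hab
      exact Option.some_injective _ hab
    · intro o ho
      cases o with
      | none => simp [QD.vo] at ho
      | some b => exact ⟨b, by simpa [QD.vo] using ho, rfl⟩

theorem Lo_sum {lam : B → ℤ} (h : Q.Om lam) (j : Option I) {N : ℕ} (hN : nvo Q j ≤ N) :
    ∑ s ∈ Finset.range N, Lo Q lam j s = nvo Q j := by
  simp only [Lo_eq]
  cases j with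
  | none =>
    simp only [H564.plo, nvo] at hN ⊢
    rw [Finset.sum_ite_eq']
    rw [if_pos (Finset.mem_range.2 (by omega))]
  | some i => exact L_sum Q h i hN

/-- the basic double sum -/
theorem sum_toNat {lam : B → ℤ} (h : Q.Om lam) (i : I) (j : Option I) :
    ∑ r ∈ Finset.univ.filter (fun b => Q.vx b = i),
      ∑ o ∈ Finset.univ.filter (fun o => Q.vo o = j), ((lam r - ext lam o).toNat : ℤ) =
    nv Q i * nvo Q j -
      ∑ s ∈ Finset.range (nv Q i), (L Q lam i s : ℤ) * (H564.plo 1 (L Q lam) j s : ℕ) := by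
  classical
  set N := nv Q i + nvo Q j + 1 with hNdef
  have hbd : ∀ o, Q.vo o = j → 1 - ext lam o ≤ N := by
    intro o ho
    cases o with
    | none => simp only [ext, Option.elim]; omega
    | some b =>
      have h1 := one_sub_le Q h b
      have h2 : nvo Q j = nv Q (Q.vx b) := by
        rw [← ho]; rfl
      have h3 : ext lam (some b) = lam b := rfl
      rw [h3]
      omega
  have h1 : ∀ r ∈ Finset.univ.filter (fun b => Q.vx b = i),
      ∀ o ∈ Finset.univ.filter (fun o => Q.vo o = j), ((lam r - ext lam o).toNat : ℤ) =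
        ∑ s ∈ Finset.range N, (if (1 - lam r) ≤ (s : ℤ) then (1 : ℤ) else 0) *
          (if (s : ℤ) < 1 - ext lam o then 1 else 0) := by
    intro r _ o ho
    have h2 := toNat_lev (1 - ext lam o) (1 - lam r) (by have := h.1 r; omega) N
      (hbd o (Finset.mem_filter.1 ho).2)
    have h3 : lam r - ext lam o = (1 - ext lam o) - (1 - lam r) := by ring
    rw [h3, h2]
    push_cast
    refine Finset.sum_congr rfl fun s _ => ?_
    by_cases ha : (1 - lam r) ≤ (s : ℤ) <;> by_cases hb : (s : ℤ) < 1 - ext lam o <;>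
      simp only [ha, hb, and_self, and_true, and_false, true_and, false_and, if_true, if_false,
        mul_one, mul_zero]
  rw [Finset.sum_congr rfl fun r hr => Finset.sum_congr rfl fun o ho => h1 r hr o ho]
  have h2 : (∑ r ∈ Finset.univ.filter (fun b => Q.vx b = i),
      ∑ o ∈ Finset.univ.filter (fun o => Q.vo o = j), ∑ s ∈ Finset.range N,
        (if (1 - lam r) ≤ (s : ℤ) then (1 : ℤ) else 0) *
          (if (s : ℤ) < 1 - ext lam o then 1 else 0)) =
      ∑ s ∈ Finset.range N, ((nv Q i : ℤ) - L Q lam i s) * Lo Q lam j s := by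
    rw [Finset.sum_congr rfl fun r _ => Finset.sum_comm]
    rw [Finset.sum_comm]
    refine Finset.sum_congr rfl fun s _ => ?_
    simp only [← Finset.mul_sum]
    rw [← Finset.sum_mul]
    congr 1
    · have h3 : ∀ r, (if (1 - lam r) ≤ (s : ℤ) then (1 : ℤ) else 0) =
          1 - (if (s : ℤ) < 1 - lam r then 1 else 0) := by
        intro r
        by_cases hr : (1 - lam r) ≤ (s : ℤ)
        · rw [if_pos hr, if_neg (by omega)]; ring
        · rw [if_neg hr, if_pos (by omega)]; ring
      simp only [h3]
      rw [Finset.sum_sub_distrib]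
      congr 1
      · simp [nv]
      · rw [Finset.sum_ite, Finset.filter_filter]
        simp [L]
    · rw [Finset.sum_ite, Finset.filter_filter]
      simp [Lo]
  rw [h2]
  simp only [sub_mul]
  rw [Finset.sum_sub_distrib, ← Finset.mul_sum]
  congr 1
  · have h3 := Lo_sum Q h j (N := N) (by omega)
    have h4 : (∑ s ∈ Finset.range N, (Lo Q lam j s : ℤ)) = nvo Q j := by exact_mod_cast h3
    rw [h4]
  · have h5 : Finset.range (nv Q i) ⊆ Finset.range N := by
      intro s hs
      rw [Finset.mem_range] at *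
      omega
    rw [← Finset.sum_subset h5]
    · refine Finset.sum_congr rfl fun s _ => ?_
      rw [Lo_eq]
    · intro s _ hs
      rw [Finset.mem_range, not_lt] at hs
      rw [L_zero Q h i hs]
      simp

/-- degree of `e lam` in terms of the levels -/
def degL [Fintype I] (l : I → ℕ → ℕ) : ℤ :=
  ∑ a, ((nv Q (Q.src a) : ℤ) * nvo Q (Q.tgt a) -
    ∑ s ∈ Finset.range (nv Q (Q.src a)), (l (Q.src a) s : ℤ) * (H564.plo 1 l (Q.tgt a) s : ℕ)) -
  ∑ i, ((nv Q i : ℤ) ^ 2 - ∑ s ∈ Finset.range (nv Q i), (l i s : ℤ) ^ 2)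

theorem degE_eq [Fintype I] {lam : B → ℤ} (h : Q.Om lam) : Q.degE lam = degL Q (L Q lam) := by
  unfold QD.degE degL
  congr 1
  · unfold QD.Wt
    rw [Finset.sum_filter, Fintype.sum_prod_type]
    refine Finset.sum_congr rfl fun a _ => ?_
    rw [← sum_toNat Q h, Fintype.sum_prod_type, Finset.sum_filter]
    refine Finset.sum_congr rfl fun r _ => ?_
    by_cases hr : Q.vx r = Q.src a
    · rw [if_pos hr, Finset.sum_filter]
      refine Finset.sum_congr rfl fun o _ => ?_
      simp [hr]
    · rw [if_neg hr]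
      simp [hr]
  · unfold QD.Prs
    have h1 : ∀ i, ((nv Q i : ℤ) ^ 2 - ∑ s ∈ Finset.range (nv Q i), (L Q lam i s : ℤ) ^ 2) =
        ∑ r ∈ Finset.univ.filter (fun b => Q.vx b = i),
          ∑ r' ∈ Finset.univ.filter (fun b => Q.vx b = i), ((lam r - lam r').toNat : ℤ) := by
      intro i
      have h2 := sum_toNat Q h i (some i)
      simp only [nvo, H564.plo] at h2
      simp only [pow_two]
      rw [← h2]
      refine Finset.sum_congr rfl fun r _ => ?_
      rw [Finset.sum_filter, Finset.sum_filter, Fintype.sum_option]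
      simp [QD.vo, ext]
    rw [Finset.sum_congr rfl fun i _ => h1 i]
    rw [Finset.sum_filter, Fintype.sum_prod_type]
    have h3 : ∀ i, (∑ r ∈ Finset.univ.filter (fun b => Q.vx b = i),
          ∑ r' ∈ Finset.univ.filter (fun b => Q.vx b = i), ((lam r - lam r').toNat : ℤ)) =
        ∑ r, if Q.vx r = i then
          ∑ r' ∈ Finset.univ.filter (fun b => Q.vx b = i), ((lam r - lam r').toNat : ℤ) else 0 := by
      intro i
      rw [Finset.sum_filter]
    rw [Finset.sum_congr rfl fun i _ => h3 i]
    conv_rhs => rw [Finset.sum_comm]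
    refine Finset.sum_congr rfl fun r _ => ?_
    rw [Finset.sum_ite_eq]
    simp only [Finset.mem_univ, if_true]
    rw [Finset.sum_filter]
    refine Finset.sum_congr rfl fun r' _ => ?_
    by_cases hr : Q.vx r = Q.vx r'
    · rw [if_pos hr, if_pos hr.symm]
    · rw [if_neg hr, if_neg (fun h => hr h.symm)]

end Vale.Agent.P291.H664
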