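import Vale.Agent.P291.H664.Lev

/-!
# P291, stage 2, H5: index data up to conjugacy and multisets
-/

set_option linter.unusedSectionVars false

open MvPolynomial

namespace Vale.Agent.P291.H664

variable {I E B Λ : Type*} [Fintype E] [DecidableEq I] [Fintype B] [DecidableEq B] [CommRing Λ]
  [IsDomain Λ]
variable (Q : QD I E B Λ)

/-- exponents at the boxes of the vertex `i` with `lam = -s` -/
def ms (x : Q.Idx0) (i : I) (s : ℕ) : Multiset ℕ :=
  (Finset.univ.filter fun b => Q.vx b = i ∧ x.1.1 b = -(s : ℤ)).val.map x.1.2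

theorem card_ms (x : Q.Idx0) (i : I) (s : ℕ) :
    (ms Q x i s).card + L Q x.1.1 i (s + 1) = L Q x.1.1 i s := by
  unfold ms L
  rw [Multiset.card_map]
  change Finset.card _ + _ = _
  rw [← Finset.card_union_of_disjoint]
  · congr 1
    ext b
    simp only [Finset.mem_union, Finset.mem_filter, Finset.mem_univ, true_and]
    push_cast
    constructor
    · rintro (⟨h1, h2⟩ | ⟨h1, h2⟩)
      · exact ⟨h1, by omega⟩
      · exact ⟨h1, by omega⟩
    · rintro ⟨h1, h2⟩
      by_cases h3 : x.1.1 b = -(s : ℤ)
      · exact Or.inl ⟨h1, h3⟩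
      · exact Or.inr ⟨h1, by omega⟩
  · rw [Finset.disjoint_filter]
    rintro b _ ⟨_, h2⟩ ⟨_, h3⟩
    push_cast at h3
    omega

theorem L_eq_of_card {l l' : ℕ → ℕ} {N : ℕ} (h0 : ∀ s, N ≤ s → l s = 0) (h0' : ∀ s, N ≤ s → l' s = 0)
    (c : ℕ → ℕ) (h : ∀ s, c s + l (s + 1) = l s) (h' : ∀ s, c s + l' (s + 1) = l' s) : l = l' := by
  have key : ∀ k s, N ≤ s + k → l s = l' s := by
    intro k
    induction k with
    | zero => intro s hs; rw [h0 s (by omega), h0' s (by omega)]
    | succ k ih =>
      intro s hs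
      rw [← h, ← h', ih (s + 1) (by omega)]
  funext s
  exact key N s (by omega)

theorem card_one (lam : B → ℤ) (hlam : Q.Om lam) (i : I) :
    (Finset.univ.filter fun b => Q.vx b = i ∧ lam b = 1).card + L Q lam i 0 = nv Q i := by
  unfold L nv
  rw [← Finset.card_union_of_disjoint]
  · congr 1
    ext b
    simp only [Finset.mem_union, Finset.mem_filter, Finset.mem_univ, true_and]
    constructor
    · rintro (⟨h1, h2⟩ | ⟨h1, h2⟩)
      · exact h1
      · exact h1
    · intro h1
      have h2 := hlam.1 b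
      by_cases h3 : lam b = 1
      · exact Or.inl ⟨h1, h3⟩
      · refine Or.inr ⟨h1, ?_⟩
        push_cast
        omega
  · rw [Finset.disjoint_filter]
    rintro b _ ⟨_, h2⟩ ⟨_, h3⟩
    push_cast at h3
    omega

theorem L_eq_of_ms {x y : Q.Idx0} (h : ∀ i s, ms Q x i s = ms Q y i s) (i : I) :
    L Q x.1.1 i = L Q y.1.1 i :=
  L_eq_of_card (N := nv Q i) (fun s hs => L_zero Q x.2.1 i hs) (fun s hs => L_zero Q y.2.1 i hs)
    (fun s => (ms Q x i s).card) (fun s => card_ms Q x i s) (fun s => by
      rw [h]; exact card_ms Q y i s)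

theorem exists_perm' {C : Type*} [DecidableEq C] (f f' : B → C)
    (h : ∀ c, (Finset.univ.filter fun b => f b = c).card =
      (Finset.univ.filter fun b => f' b = c).card) :
    ∃ σ : Equiv.Perm B, ∀ b, f' (σ b) = f b := by
  classical
  have h1 : ∀ c, Nonempty ({a // f a = c} ≃ {b // f' b = c}) := by
    intro c
    rw [← Fintype.card_eq, Fintype.card_subtype, Fintype.card_subtype]
    exact h c
  exact ⟨Equiv.ofFiberEquiv fun c => (h1 c).some, fun b => Equiv.ofFiberEquiv_map _ b⟩

theorem count_ms (x : Q.Idx0) (i : I) (s e : ℕ) : (ms Q x i s).count e =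
    (Finset.univ.filter fun b => Q.vx b = i ∧ x.1.1 b = -(s : ℤ) ∧ x.1.2 b = e).card := by
  unfold ms
  rw [Multiset.count_map]
  change Finset.card (Finset.filter _ _) = _
  rw [Finset.filter_filter]
  congr 1
  ext b
  simp only [Finset.mem_filter, Finset.mem_univ, true_and]
  constructor
  · rintro ⟨⟨h1, h2⟩, h3⟩
    exact ⟨h1, h2, h3.symm⟩
  · rintro ⟨h1, h2, h3⟩
    exact ⟨⟨h1, h2⟩, h3.symm⟩

theorem conj_of_ms {x y : Q.Idx0} (h : ∀ i s, ms Q x i s = ms Q y i s) :
    Q.idxSetoid.r x y := by
  have hL := L_eq_of_ms Q h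
  obtain ⟨σ, hσ⟩ := exists_perm' (fun b => (Q.vx b, x.1.1 b, x.1.2 b))
    (fun b => (Q.vx b, y.1.1 b, y.1.2 b)) (by
      rintro ⟨i, a, e⟩
      simp only [Prod.mk.injEq]
      rcases lt_trichotomy a 1 with ha | ha | ha
      · obtain ⟨s, rfl⟩ : ∃ s : ℕ, a = -(s : ℤ) := ⟨(-a).toNat, by omega⟩
        rw [← count_ms, ← count_ms, h]
      · subst ha
        rcases Nat.eq_zero_or_pos e with rfl | he
        · have e1 : ∀ z : Q.Idx0, (Finset.univ.filter fun b => Q.vx b = i ∧ z.1.1 b = 1 ∧
              z.1.2 b = 0).card = nv Q i - L Q z.1.1 i 0 := by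
            intro z
            have h1 := card_one Q z.1.1 z.2.1 i
            have h2 : (Finset.univ.filter fun b => Q.vx b = i ∧ z.1.1 b = 1 ∧ z.1.2 b = 0) =
                (Finset.univ.filter fun b => Q.vx b = i ∧ z.1.1 b = 1) := by
              ext b
              simp only [Finset.mem_filter, Finset.mem_univ, true_and]
              exact ⟨fun hb => ⟨hb.1, hb.2.1⟩, fun hb => ⟨hb.1, hb.2, z.2.2 b hb.2⟩⟩
            rw [h2]
            omega
          rw [e1, e1, hL]
        · have e1 : ∀ z : Q.Idx0, (Finset.univ.filter fun b => Q.vx b = i ∧ z.1.1 b = 1 ∧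
              z.1.2 b = e).card = 0 := by
            intro z
            rw [Finset.card_eq_zero, Finset.filter_eq_empty_iff]
            rintro b _ ⟨_, h2, h3⟩
            have := z.2.2 b h2
            omega
          rw [e1, e1]
      · have e1 : ∀ z : Q.Idx0, (Finset.univ.filter fun b => Q.vx b = i ∧ z.1.1 b = a ∧
              z.1.2 b = e).card = 0 := by
            intro z
            rw [Finset.card_eq_zero, Finset.filter_eq_empty_iff]
            rintro b _ ⟨_, h2, h3⟩
            have := z.2.1.1 b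
            omega
        rw [e1, e1])
  simp only [Prod.mk.injEq] at hσ
  have hinv : ∀ b, σ (σ⁻¹ b) = b := fun b => σ.apply_symm_apply b
  refine ⟨σ, (mem_W Q).2 fun b => (hσ b).1, ?_, ?_⟩
  · funext b
    have := (hσ (σ⁻¹ b)).2.1
    rw [hinv] at this
    exact this
  · ext b
    have := (hσ (σ⁻¹ b)).2.2
    rw [hinv] at this
    rw [this]
    conv_rhs => rw [← hinv b]
    rw [Finsupp.mapDomain_apply σ.injective]

theorem ms_of_conj {x y : Q.Idx0} (h : Q.idxSetoid.r x y) (i : I) (s : ℕ) :
    ms Q x i s = ms Q y i s := by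
  obtain ⟨σ, hσ, h1, h2⟩ := h
  ext e
  rw [count_ms, count_ms]
  refine Finset.card_equiv σ fun b => ?_
  simp only [Finset.mem_filter, Finset.mem_univ, true_and]
  rw [(mem_W Q).1 hσ b, h1, h2, lact_apply, Finsupp.mapDomain_apply σ.injective]

/-- every multiset of the right size is the multiset of values of a function -/
theorem exists_fun {β X : Type*} [Fintype β] (M : Multiset X) (h : M.card = Fintype.card β) :
    ∃ f : β → X, (Finset.univ : Finset β).val.map f = M := by
  classical
  induction M using Quotient.inductionOn with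
  | h l =>
    have hl : l.length = Fintype.card β := by simpa using h
    let e : β ≃ Fin l.length := (Fintype.equivFin β).trans (finCongr hl.symm)
    refine ⟨fun b => l.get (e b), ?_⟩
    have h1 : (Finset.univ : Finset β).val.map (fun b => l.get (e b)) =
        ((Finset.univ : Finset β).val.map e).map l.get := by
      rw [Multiset.map_map]; rfl
    rw [h1, Multiset.map_univ_val_equiv]
    have h2 : (Finset.univ : Finset (Fin l.length)).val = (List.finRange l.length : Multiset _) := rfl
    rw [h2, Multiset.map_coe]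
    congr 1
    exact List.map_get_finRange l

end Vale.Agent.P291.H664
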